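import Crest.Agent.N207.Tens
import Crest.Agent.R247.Bo8_84

/-!
# Row 207 (helper8): FROZEN definitions, part 2: metrics, slices, flows

* `Met n M`: a smooth Riemannian metric on `M`; everything is stated ON `M` with an explicit metric
  `m`: `m.G x` (chart metric), `m.gam`, `m.lap`, `m.scal`, `m.rm j = |∇ʲRm|²`, `m.rc j = |∇ʲRic|²`,
  `m.df j f = |∇ʲf|²`, `m.d`, `m.ball`, `m.vol`, `m.pm Ψ` (pull-back metric).
* `Sl m`: the type `M` with ALL the instances of the static libraries (R247, R249, R244, ...):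
  `m.G x = chartMetric n (Sl m) x`, `m.lap = mLap n (M := Sl m)`, `m.vol = μHE[n]`, all by `rfl`.
* `CT n M k`: tensor fields given in every preferred chart, `IsGlob` = smooth and compatible.
* `Flow M`: a Ricci flow on `[0, T)`.
-/

set_option autoImplicit false
set_option linter.style.haveILetI false
set_option linter.unusedSectionVars false

open scoped ContDiff Manifold Topology ENNReal
open Set Bundle MeasureTheory
open Crest.GeometryTopology.CoordMetric Crest.GeometryTopology.ChartCurvature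
  Crest.GeometryTopology.MetricFamily
open Crest.Agent.R247

noncomputable section

namespace Crest.Agent.N207

/-- smooth Riemannian metrics -/
abbrev Met (n : ℕ) (M : Type*) [TopologicalSpace M] [ChartedSpace (En n) M]
    [IsManifold 𝓘(ℝ, En n) ∞ M] :=
  ContMDiffRiemannianMetric 𝓘(ℝ, En n) ∞ (En n) (fun x : M => TangentSpace 𝓘(ℝ, En n) x)

/-- tensor fields, given by their components in every preferred chart -/
abbrev CT (n : ℕ) (M : Type*) (k : ℕ) := M → Tn n k

variable {n k : ℕ} {M : Type*} [TopologicalSpace M] [ChartedSpace (En n) M]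
  [IsManifold 𝓘(ℝ, En n) ∞ M]

/-- target of the preferred chart -/
abbrev tg (n : ℕ) {M : Type*} [TopologicalSpace M] [ChartedSpace (En n) M] (x : M) : Set (En n) :=
  (chartAt (En n) x).target

/-- centre of the preferred chart -/
abbrev ctr (n : ℕ) {M : Type*} [TopologicalSpace M] [ChartedSpace (En n) M] (x : M) : En n :=
  chartAt (En n) x x

/-- smooth functions -/
abbrev Sm (n : ℕ) {M : Type*} [TopologicalSpace M] [ChartedSpace (En n) M] (f : M → ℝ) : Prop :=
  ContMDiff 𝓘(ℝ, En n) 𝓘(ℝ, ℝ) ∞ f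

/-- compatible under the changes of charts -/
def Compat (T : CT n M k) : Prop :=
  ∀ x₀ x₁ : M, ∀ y ∈ Bo84.tdom (n := n) x₀ x₁, T x₀ y = pullT (Bo84.trans x₀ x₁) (T x₁) y

/-- a smooth tensor field on `M` -/
structure IsGlob (T : CT n M k) : Prop where
  sm : ∀ x, SmT (T x) (tg n x)
  compat : Compat T

/-- a function as a `0`-tensor field -/
def fnC (n : ℕ) {M : Type*} [TopologicalSpace M] [ChartedSpace (En n) M] (f : M → ℝ) : CT n M 0 :=
  fun x => fnT (Bo84.inCh n x f)

/-- `df` -/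
def dC (n : ℕ) {M : Type*} [TopologicalSpace M] [ChartedSpace (En n) M] (f : M → ℝ) : CT n M 1 :=
  fun x => dT (Bo84.inCh n x f)

/-- product of a function and a tensor field -/
def smC (f : M → ℝ) (T : CT n M k) : CT n M k := fun x => smT (Bo84.inCh n x f) (T x)

/-- the value of a `0`-tensor field -/
def valC (T : CT n M 0) (x : M) : ℝ := T x (ctr n x) ![]

/-- local parametrisations: smooth immersions of an open subset of `ℝⁿ` -/
structure Par (Ψ : En n → M) (U : Set (En n)) : Prop where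
  isOpen : IsOpen U
  sm : ContMDiffOn 𝓘(ℝ, En n) 𝓘(ℝ, En n) ∞ Ψ U
  inj : ∀ y ∈ U, Function.Injective (mfderiv 𝓘(ℝ, En n) 𝓘(ℝ, En n) Ψ y)

/-- components of the pull-back of a tensor field by a parametrisation -/
def plC (Ψ : En n → M) (T : CT n M k) : Tn n k := fun y =>
  pullT (fun z => chartAt (En n) (Ψ y) (Ψ z)) (T (Ψ y)) y

/-- `M` with the instances of the metric `m` -/
def Sl (_m : Met n M) : Type _ := M

namespace Sl

variable (m : Met n M)

@[reducible] def tp : TopologicalSpace (Sl m) := inferInstanceAs (TopologicalSpace M)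

@[reducible] def ch : letI := tp m; ChartedSpace (En n) (Sl m) :=
  inferInstanceAs (ChartedSpace (En n) M)

theorem mf : letI := tp m; letI := ch m; IsManifold 𝓘(ℝ, En n) ∞ (Sl m) :=
  inferInstanceAs (IsManifold 𝓘(ℝ, En n) ∞ M)

@[reducible] def rb : letI := tp m; letI := ch m;
    RiemannianBundle (fun p : Sl m => TangentSpace 𝓘(ℝ, En n) p) :=
  letI := tp m; letI := ch m; ⟨m.toRiemannianMetric⟩

theorem crb : letI := tp m; letI := ch m; letI := mf m; letI := rb m;
    IsContMDiffRiemannianBundle 𝓘(ℝ, En n) ∞ (En n)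
      (fun p : Sl m => TangentSpace 𝓘(ℝ, En n) p) :=
  letI := tp m; letI := ch m; letI := mf m; letI := rb m;
  ⟨m.inner, m.contMDiff, fun _ _ _ => rfl⟩

theorem cob : letI := tp m; letI := ch m; letI := mf m; letI := rb m;
    IsContinuousRiemannianBundle (En n) (fun p : Sl m => TangentSpace 𝓘(ℝ, En n) p) :=
  letI := tp m; letI := ch m; letI := mf m; letI := rb m;
  ⟨m.inner, m.contMDiff.continuous, fun _ _ _ => rfl⟩

variable [T3Space M] [ConnectedSpace M]

/-- the Riemannian distance, extended version, with the given topology -/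
@[reducible] def ems : EMetricSpace (Sl m) :=
  letI := tp m; letI := ch m; letI := mf m; letI := rb m; letI := crb m
  letI : T3Space (Sl m) := inferInstanceAs (T3Space M)
  letI := cob m
  EMetricSpace.ofRiemannianMetric 𝓘(ℝ, En n) (Sl m)

theorem edist_ne_top' (x y : Sl m) : (ems m).edist x y ≠ ⊤ := by
  letI := ems m
  letI : ConnectedSpace (Sl m) := inferInstanceAs (ConnectedSpace M)
  have h1 : IsOpen {z : Sl m | edist x z < ⊤} := by
    rw [isOpen_iff_mem_nhds]
    intro z hz
    refine Filter.mem_of_superset (Metric.eball_mem_nhds z (ε := 1) one_pos) ?_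
    intro w hw
    have hw' : edist w z < 1 := hw
    have h2 : edist x w ≤ edist x z + edist z w := edist_triangle _ _ _
    refine lt_of_le_of_lt h2 (ENNReal.add_lt_top.2 ⟨hz, ?_⟩)
    rw [edist_comm]
    exact hw'.trans ENNReal.one_lt_top
  have h2 : IsClosed {z : Sl m | edist x z < ⊤} := by
    rw [← isOpen_compl_iff, isOpen_iff_mem_nhds]
    intro z hz
    refine Filter.mem_of_superset (Metric.eball_mem_nhds z (ε := 1) one_pos) ?_
    intro w hw hw2
    have hw' : edist w z < 1 := hw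
    have hw3 : edist x w < ⊤ := hw2
    have h3 : edist x z ≤ edist x w + edist w z := edist_triangle _ _ _
    exact hz (lt_of_le_of_lt h3 (ENNReal.add_lt_top.2 ⟨hw3, hw'.trans ENNReal.one_lt_top⟩))
  have h3 : {z : Sl m | edist x z < ⊤} = univ :=
    IsClopen.eq_univ ⟨h2, h1⟩ ⟨x, by simp⟩
  have h4 : y ∈ {z : Sl m | edist x z < ⊤} := h3 ▸ mem_univ y
  exact ne_of_lt h4

/-- the Riemannian distance; its topology is the one of `M`, definitionally -/
instance instMS : MetricSpace (Sl m) :=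
  letI := ems m
  EMetricSpace.toMetricSpace (edist_ne_top' m)

instance instCh : ChartedSpace (En n) (Sl m) := ch m

instance instMfd : IsManifold 𝓘(ℝ, En n) ∞ (Sl m) := mf m

instance instConn : ConnectedSpace (Sl m) := inferInstanceAs (ConnectedSpace M)

instance instRB : RiemannianBundle (fun p : Sl m => TangentSpace 𝓘(ℝ, En n) p) := rb m

instance instCRB : IsContMDiffRiemannianBundle 𝓘(ℝ, En n) ∞ (En n)
    (fun p : Sl m => TangentSpace 𝓘(ℝ, En n) p) := crb m

instance instRM : IsRiemannianManifold 𝓘(ℝ, En n) (Sl m) := ⟨fun _ _ => rfl⟩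

instance instCpt [CompactSpace M] : CompactSpace (Sl m) := inferInstanceAs (CompactSpace M)

instance instSC [SecondCountableTopology M] : SecondCountableTopology (Sl m) :=
  inferInstanceAs (SecondCountableTopology M)

instance instMeas [MeasurableSpace M] : MeasurableSpace (Sl m) :=
  inferInstanceAs (MeasurableSpace M)

instance instBorel [MeasurableSpace M] [BorelSpace M] : BorelSpace (Sl m) :=
  inferInstanceAs (BorelSpace M)

theorem inner_eq (p : Sl m) (v w : TangentSpace 𝓘(ℝ, En n) p) :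
    inner ℝ v w = m.inner p v w := rfl

end Sl

namespace Met

variable (m : Met n M)

/-- pull-back metric of a map `ℝⁿ → M` -/
def pm (Ψ : En n → M) : MetricField n := fun y => Matrix.of fun i j =>
  m.inner (Ψ y) (mfderiv 𝓘(ℝ, En n) 𝓘(ℝ, En n) Ψ y (EuclideanSpace.single i 1))
    (mfderiv 𝓘(ℝ, En n) 𝓘(ℝ, En n) Ψ y (EuclideanSpace.single j 1))

/-- the metric in the preferred chart at `x` -/
def G (x : M) : MetricField n := m.pm (chartAt (En n) x).symm

/-- `⟨∇f, ∇h⟩` -/
def gam (f h : M → ℝ) (x : M) : ℝ :=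
  Bo84.gam (m.G x) (Bo84.inCh n x f) (Bo84.inCh n x h) (ctr n x)

/-- Laplacian -/
def lap (f : M → ℝ) (x : M) : ℝ := laplaceBeltrami (m.G x) (Bo84.inCh n x f) (ctr n x)

/-- scalar curvature -/
def scal (x : M) : ℝ := scalarCurv (m.G x) (ctr n x)

/-- `∇T` -/
def cov (T : CT n M k) : CT n M (k + 1) := fun x => N207.cov (m.G x) (T x)

/-- `∇ʲT` -/
def covN (T : CT n M k) (j : ℕ) : CT n M (k + j) := fun x => N207.covN (m.G x) (T x) j

/-- trace over the indices `0, 1` -/
def tr (T : CT n M (k + 2)) : CT n M k := fun x => trT (m.G x) (T x)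

/-- divergence in the index `0` -/
def div (T : CT n M (k + 1)) : CT n M k := fun x => divT (m.G x) (T x)

/-- rough Laplacian -/
def lapC (T : CT n M k) : CT n M k := fun x => lapT (m.G x) (T x)

/-- the 1-form `⟨S, T(·, ..)⟩` -/
def con (S : CT n M k) (T : CT n M (k + 1)) : CT n M 1 := fun x => conT (m.G x) (S x) (T x)

/-- `⟨S, T⟩` -/
def ip (S T : CT n M k) (x : M) : ℝ := N207.ip (m.G x) (S x) (T x) (ctr n x)

/-- `|T|²` -/
def nsq (T : CT n M k) (x : M) : ℝ := m.ip T T x

/-- the metric tensor -/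
def met : CT n M 2 := fun x => matT (m.G x)

/-- the Ricci tensor -/
def ric : CT n M 2 := fun x => ricT (m.G x)

/-- the Riemann tensor -/
def riem : CT n M 4 := fun x => rmT (m.G x)

/-- the Hessian -/
def hess (f : M → ℝ) : CT n M 2 := fun x => hessT (m.G x) (Bo84.inCh n x f)

/-- `|∇ʲ Rm|²` -/
def rm (j : ℕ) (x : M) : ℝ := m.nsq (m.covN m.riem j) x

/-- `|∇ʲ Ric|²` -/
def rc (j : ℕ) (x : M) : ℝ := m.nsq (m.covN m.ric j) x

/-- `|∇ʲ f|²` -/
def df (j : ℕ) (f : M → ℝ) (x : M) : ℝ := m.nsq (m.covN (fnC n f) j) x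

/-- the Pfaffian density `|Rm|² - 4 |Ric|² + R²` -/
def pf (x : M) : ℝ := m.rm 0 x - 4 * m.rc 0 x + m.scal x ^ 2

variable [T3Space M] [ConnectedSpace M]

/-- Riemannian distance -/
def d (x y : M) : ℝ := dist (α := Sl m) x y

/-- open balls -/
def ball (x : M) (r : ℝ) : Set M := {y | m.d y x < r}

/-- Riemannian volume -/
def vol [MeasurableSpace M] [BorelSpace M] : Measure M := (μHE[n] : Measure (Sl m))

theorem G_eq (x : M) : m.G x = chartMetric n (Sl m) x := rfl

theorem gam_eq (f h : M → ℝ) (x : M) : m.gam f h x = Bo84.mGam n (M := Sl m) f h x := rfl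

theorem lap_eq (f : M → ℝ) (x : M) : m.lap f x = Bo84.mLap n (M := Sl m) f x := rfl

theorem ball_eq (x : M) (r : ℝ) : m.ball x r = Metric.ball (α := Sl m) x r := rfl

end Met

/-! ### time dependent objects -/

/-- a family of metrics, jointly smooth on `J × M` -/
def SmFam (m : ℝ → Met n M) (J : Set ℝ) : Prop :=
  ∀ x i j, ContDiffOn ℝ ∞ (fun p : ℝ × En n => (m p.1).G x p.2 i j) (J ×ˢ tg n x)

/-- the Ricci flow equation at the times of `J`, in every preferred chart -/
def RFOn (m : ℝ → Met n M) (J : Set ℝ) : Prop :=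
  ∀ x, ∀ t ∈ J, ∀ y ∈ tg n x, ∀ i j,
    HasDerivAt (fun s => (m s).G x y i j) (-2 * ricci ((m t).G x) y i j) t

/-- functions jointly smooth on `J × M` -/
def SmST (n : ℕ) {M : Type*} [TopologicalSpace M] [ChartedSpace (En n) M] (u : ℝ → M → ℝ)
    (J : Set ℝ) : Prop :=
  ∀ x, ContDiffOn ℝ ∞ (fun p : ℝ × En n => Bo84.inCh n x (u p.1) p.2) (J ×ˢ tg n x)

/-- tensor fields jointly smooth on `J × M` -/
structure GlobST (T : ℝ → CT n M k) (J : Set ℝ) : Prop where
  sm : ∀ x, SmTT (fun t => T t x) J (tg n x)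
  compat : ∀ t ∈ J, Compat (T t)

/-- time derivative -/
def dt {M : Type*} (u : ℝ → M → ℝ) (t : ℝ) (x : M) : ℝ := deriv (fun s => u s x) t

/-- heat operator `∂ₜ - Δ` -/
def box (m : ℝ → Met n M) (u : ℝ → M → ℝ) (t : ℝ) (x : M) : ℝ := dt u t x - (m t).lap (u t) x

/-- conjugate heat operator `-∂ₜ - Δ + R` -/
def cbox (m : ℝ → Met n M) (u : ℝ → M → ℝ) (t : ℝ) (x : M) : ℝ :=
  -dt u t x - (m t).lap (u t) x + (m t).scal x * u t x

/-- Uhlenbeck's time derivative of a tensor field -/
def DtC (m : ℝ → Met n M) (T : ℝ → CT n M k) (t : ℝ) : CT n M k := fun x =>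
  DtT (fun s => (m s).G x) (fun s => T s x) t

/-- `Dₜ - Δ` on tensor fields -/
def boxC (m : ℝ → Met n M) (T : ℝ → CT n M k) (t : ℝ) : CT n M k := fun x =>
  boxT (fun s => (m s).G x) (fun s => T s x) t

/-- a smooth solution of the heat equation on `[a, b]` -/
structure IsHeat (m : ℝ → Met n M) (u : ℝ → M → ℝ) (a b : ℝ) : Prop where
  sm : SmST n u (Icc a b)
  eq : ∀ t ∈ Ioo a b, ∀ x, box m u t x = 0

/-- a smooth solution of the conjugate heat equation on `[a, b]` -/
structure IsConj (m : ℝ → Met n M) (u : ℝ → M → ℝ) (a b : ℝ) : Prop where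
  sm : SmST n u (Icc a b)
  eq : ∀ t ∈ Ioo a b, ∀ x, cbox m u t x = 0

/-- a Ricci flow on `[0, T)` (`m t` is junk, but a smooth metric, outside `[0, T)`) -/
structure Flow (M : Type*) [TopologicalSpace M] [ChartedSpace E4 M]
    [IsManifold 𝓘(ℝ, E4) ∞ M] where
  T : ℝ
  hT : 0 < T
  m : ℝ → Met 4 M
  sm : SmFam m (Ico 0 T)
  rf : RFOn m (Ioo 0 T)

namespace Flow

variable {M : Type*} [TopologicalSpace M] [ChartedSpace E4 M] [IsManifold 𝓘(ℝ, E4) ∞ M]
  (F : Flow M)

/-- `|R| ≤ C` -/
def BddR (C : ℝ) : Prop := ∀ t ∈ Ico 0 F.T, ∀ x, |(F.m t).scal x| ≤ C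

/-- `|Rm|²` is bounded -/
def BddRm : Prop := ∃ C : ℝ, ∀ t ∈ Ico 0 F.T, ∀ x, (F.m t).rm 0 x ≤ C

/-- the flow extends beyond `T` -/
def Extends : Prop := ∃ F' : Flow M, F.T < F'.T ∧ ∀ t ∈ Ico 0 F.T, F'.m t = F.m t

end Flow

end Crest.Agent.N207

end
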